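import Vale.Agent.N192T.Kaz

/-!
# P192: an infinite group with property (T) is not amenable
-/

namespace Vale.Agent.N192T

open scoped InnerProductSpace Pointwise ENNReal

variable {G : Type} [Group G]

/-- square summable real functions -/
abbrev L2 (G : Type) : Type := lp (fun _ : G => ℝ) 2

theorem two_pos' : 0 < (2 : ℝ≥0∞).toReal := by norm_num

/-- left translation -/
noncomputable def shift (g : G) : L2 G →ₗᵢ[ℝ] L2 G where
  toFun f := ⟨fun y => f (g⁻¹ * y), memℓp_gen
    ((Equiv.mulLeft g⁻¹).summable_iff.2 ((lp.memℓp f).summable two_pos'))⟩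
  map_add' _ _ := rfl
  map_smul' _ _ := rfl
  norm_map' f := by
    rw [lp.norm_eq_tsum_rpow two_pos', lp.norm_eq_tsum_rpow two_pos' f,
      ← (Equiv.mulLeft g⁻¹).tsum_eq fun y => ‖f y‖ ^ (2 : ℝ≥0∞).toReal]
    rfl

/-- the left regular representation -/
noncomputable def reg : G →* (L2 G →ₗᵢ[ℝ] L2 G) where
  toFun := shift
  map_one' := by
    ext f y
    show f ((1 : G)⁻¹ * y) = f y
    rw [inv_one, one_mul]
  map_mul' g h := by
    ext f y
    show f ((g * h)⁻¹ * y) = f (h⁻¹ * (g⁻¹ * y))
    rw [mul_inv_rev, mul_assoc]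

theorem reg_apply (g : G) (f : L2 G) (y : G) : reg g f y = f (g⁻¹ * y) := rfl

variable [DecidableEq G]

/-- the indicator function of a finite set -/
noncomputable def ind (T : Finset G) : L2 G :=
  ⟨fun y => if y ∈ T then 1 else 0, memℓp_gen (summable_of_ne_finset_zero (s := T)
    fun y hy => by simp [hy])⟩

omit [Group G] in
theorem ind_apply (T : Finset G) (y : G) : ind T y = if y ∈ T then 1 else 0 := rfl

omit [Group G] in
theorem inner_ind (T T' : Finset G) : ⟪ind T, ind T'⟫_ℝ = (T ∩ T').card := by
  rw [lp.inner_eq_tsum, tsum_eq_sum (s := T ∩ T') fun y hy => ?_]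
  · rw [Finset.card_eq_sum_ones, Nat.cast_sum]
    refine Finset.sum_congr rfl fun y hy => ?_
    rw [Finset.mem_inter] at hy
    simp [ind_apply, hy.1, hy.2]
  · rw [Finset.mem_inter, not_and_or] at hy
    rcases hy with hy | hy <;> simp [ind_apply, hy]

omit [Group G] in
theorem norm_ind (T : Finset G) : ‖ind T‖ ^ 2 = T.card := by
  rw [← real_inner_self_eq_norm_sq, inner_ind, Finset.inter_self]

theorem reg_ind (g : G) (T : Finset G) : reg g (ind T) = ind (g • T) := by
  ext y
  rw [reg_apply, ind_apply, ind_apply]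
  exact if_congr (Finset.inv_smul_mem_iff (a := g) (b := y)) rfl rfl

theorem TR.grow [Infinite G] (h : TR.{0} G) :
    ∃ (S : Finset G) (ε : ℝ), 0 < ε ∧ ∀ T : Finset G, (1 + ε) * T.card ≤ (S * T).card := by
  obtain ⟨S, ε, hε, h⟩ := h
  refine ⟨insert 1 S, ε ^ 2 / 2, by positivity, fun T => ?_⟩
  rcases T.eq_empty_or_nonempty with rfl | hT
  · simp
  by_contra hlt
  have hc : (0 : ℝ) < T.card := by exact_mod_cast hT.card_pos
  obtain ⟨η, hη, hinv⟩ := h (L2 G) reg (ind T)
    (fun e => by
      have := norm_ind T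
      rw [e, norm_zero] at this
      linarith)
    (fun s hs => by
      refine (pow_le_pow_iff_left₀ (dp_nonneg _ _ _) (by positivity) two_ne_zero).1 ?_
      have hsub : s • T ∪ T ⊆ insert 1 S * T := by
        intro y hy
        rcases Finset.mem_union.1 hy with hy | hy
        · obtain ⟨a, ha, rfl⟩ := Finset.mem_smul_finset.1 hy
          exact Finset.mul_mem_mul (Finset.mem_insert_of_mem hs) ha
        · simpa using Finset.mul_mem_mul (Finset.mem_insert_self 1 S) hy
      have e1 : ((s • T ∪ T).card : ℝ) ≤ (insert 1 S * T).card := by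
        exact_mod_cast Finset.card_le_card hsub
      have e2 : ((s • T ∪ T).card : ℝ) + (s • T ∩ T).card = (s • T).card + T.card := by
        exact_mod_cast Finset.card_union_add_card_inter (s • T) T
      rw [dp, reg_ind, norm_sub_sq_real, mul_pow, norm_ind, norm_ind, inner_ind]
      rw [Finset.card_smul_finset] at e2 ⊢
      linarith)
  have hconst : ∀ y : G, η y = η 1 := fun y => by
    have h1 := congrArg (fun f : L2 G => f y) (hinv y)
    simp only [reg_apply, inv_mul_cancel] at h1
    exact h1.symm
  have h2 := (lp.memℓp η).summable two_pos'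
  simp only [hconst, summable_const_iff] at h2
  have h4 : η 1 = 0 := by simpa using h2
  refine hη (lp.ext (funext fun y => ?_))
  rw [hconst y, h4]
  rfl

theorem doubling {S : Finset G} {ε : ℝ} (hε : 0 < ε)
    (step : ∀ T : Finset G, (1 + ε) * T.card ≤ (S * T).card) :
    ∃ S : Finset G, ∀ T : Finset G, 2 * T.card ≤ (S * T).card := by
  have iter : ∀ (k : ℕ) (T : Finset G), (1 + k * ε) * T.card ≤ (S ^ k * T).card := by
    intro k T
    induction k with
    | zero => simp
    | succ k ih =>
      have h1 := step (S ^ k * T)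
      rw [pow_succ', mul_assoc]
      have h2 : (0 : ℝ) ≤ T.card := Nat.cast_nonneg _
      have h3 : (0 : ℝ) ≤ k * ε * ε * T.card := by positivity
      push_cast
      nlinarith
  obtain ⟨k, hk⟩ := exists_nat_ge (1 / ε)
  refine ⟨S ^ k, fun T => ?_⟩
  have h1 := iter k T
  rw [div_le_iff₀ hε] at hk
  have h3 : (0 : ℝ) ≤ T.card := Nat.cast_nonneg _
  have : (2 : ℝ) * T.card ≤ (S ^ k * T).card := by nlinarith
  exact_mod_cast this

theorem not_amenable_of_doubling {S : Finset G}
    (h : ∀ T : Finset G, 2 * T.card ≤ (S * T).card) : ¬ Amenable G := by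
  rintro ⟨m, m0, m1, madd, minv⟩
  obtain ⟨f, hf, hfS⟩ := (Finset.all_card_le_biUnion_card_iff_exists_injective
    (fun p : G × Bool => S.image (· * p.1))).1 (fun s => by
      have h1 : s.card ≤ 2 * (s.image Prod.fst).card := by
        have : s ⊆ s.image Prod.fst ×ˢ (Finset.univ : Finset Bool) := fun p hp =>
          Finset.mem_product.2 ⟨Finset.mem_image_of_mem _ hp, Finset.mem_univ _⟩
        have := Finset.card_le_card this
        rw [Finset.card_product, Finset.card_univ, Fintype.card_bool] at this
        omega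
      refine h1.trans ((h _).trans (Finset.card_le_card fun y hy => ?_))
      obtain ⟨u, hu, v, hv, rfl⟩ := Finset.mem_mul.1 hy
      obtain ⟨p, hp, rfl⟩ := Finset.mem_image.1 hv
      exact Finset.mem_biUnion.2 ⟨p, hp, Finset.mem_image_of_mem _ hu⟩)
  have me : m ∅ = 0 := by
    have := madd ∅ ∅ (disjoint_bot_left)
    rw [Set.union_empty] at this
    linarith
  -- an injective piecewise translation preserves the measure
  have key : ∀ φ : G → G, Function.Injective φ → ∀ (R : Finset G) (A : Set G),
      (∀ y ∈ A, ∃ s ∈ R, φ y = s * y) → m (φ '' A) = m A := by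
    intro φ hφ R
    induction R using Finset.induction_on with
    | empty =>
      intro A hA
      have : A = ∅ := Set.eq_empty_of_forall_notMem fun y hy => by simpa using hA y hy
      rw [this, Set.image_empty]
    | insert s R _ ih =>
      intro A hA
      have hd : Disjoint (A ∩ {y | φ y = s * y}) (A \ {y | φ y = s * y}) :=
        Set.disjoint_left.2 fun y h1 h2 => h2.2 h1.2
      have e1 : φ '' (A ∩ {y | φ y = s * y}) = s • (A ∩ {y | φ y = s * y}) :=
        Set.image_congr fun y hy => hy.2
      have e2 := ih (A \ {y | φ y = s * y}) fun y hy => by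
        obtain ⟨t, ht, e⟩ := hA y hy.1
        rcases Finset.mem_insert.1 ht with rfl | ht
        · exact absurd e hy.2
        · exact ⟨t, ht, e⟩
      rw [← Set.inter_union_sdiff A {y | φ y = s * y}, Set.image_union,
        madd _ _ ((Set.disjoint_image_iff hφ).2 hd), madd _ _ hd, e1, minv, e2]
  have one : ∀ b, m ((fun g => f (g, b)) '' Set.univ) = 1 := fun b => by
    rw [key _ (fun _ _ e => congrArg Prod.fst (hf e)) S _ fun y _ => ?_, m1]
    obtain ⟨s, hs, e⟩ := Finset.mem_image.1 (hfS (y, b))
    exact ⟨s, hs, e.symm⟩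
  have hd : Disjoint ((fun g => f (g, false)) '' Set.univ) ((fun g => f (g, true)) '' Set.univ) := by
    rw [Set.disjoint_left]
    rintro _ ⟨g, -, rfl⟩ ⟨g', -, e⟩
    simpa using congrArg Prod.snd (hf e)
  have e1 := madd _ _ hd
  have e2 := madd _ _ (disjoint_compl_right
    (a := (fun g => f (g, false)) '' Set.univ ∪ (fun g => f (g, true)) '' Set.univ))
  rw [Set.union_compl_self, m1, e1, one, one] at e2
  linarith [m0 ((fun g => f (g, false)) '' Set.univ ∪ (fun g => f (g, true)) '' Set.univ)ᶜ]

omit [DecidableEq G] in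
theorem TR.not_amenable [Infinite G] (h : TR.{0} G) : ¬ Amenable G := by
  classical
  obtain ⟨S, ε, hε, hS⟩ := h.grow
  obtain ⟨S', hS'⟩ := doubling hε hS
  exact not_amenable_of_doubling hS'

end Vale.Agent.N192T
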