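import Mathlib

/-!
# P192: ordinary finite presentations, property (T), amenability: definitions
-/

namespace Vale.Agent.N192T

open scoped Pointwise

universe u

/-- `G` has an ordinary finite presentation: `G ≅ F / N`, with `F` free on finitely many generators
and `N` the normal closure in `F` of finitely many words. -/
def FinPres (G : Type) [Group G] : Prop :=
  ∃ (n : ℕ) (R : Finset (FreeGroup (Fin n))),
    Nonempty (G ≃* FreeGroup (Fin n) ⧸ Subgroup.normalClosure (R : Set (FreeGroup (Fin n))))

/-- Kazhdan's property (T): there are a finite set `S` and `ε > 0` such that every unitary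
representation with a unit vector moved by less than `ε` by each element of `S` has a nonzero
invariant vector. -/
def Kazhdan (G : Type) [Group G] : Prop :=
  ∃ (S : Finset G) (ε : ℝ), 0 < ε ∧
    ∀ (H : Type u) [NormedAddCommGroup H] [InnerProductSpace ℂ H] [CompleteSpace H]
      (π : G →* (H ≃ₗᵢ[ℂ] H)) (ξ : H), ‖ξ‖ = 1 → (∀ s ∈ S, ‖π s ξ - ξ‖ < ε) →
      ∃ η : H, η ≠ 0 ∧ ∀ g, π g η = η

/-- `G` is amenable: it has a left invariant finitely additive probability measure defined on all
subsets. -/
def Amenable (G : Type) [Group G] : Prop :=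
  ∃ m : Set G → ℝ, (∀ A, 0 ≤ m A) ∧ m Set.univ = 1 ∧
    (∀ A B, Disjoint A B → m (A ∪ B) = m A + m B) ∧ ∀ (g : G) (A : Set G), m (g • A) = m A

end Vale.Agent.N192T
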