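import Mathlib

/-!
# P192, property (T): fixed vectors of sets of group elements and their projections
-/

namespace Vale.Agent.N192T

open scoped InnerProductSpace

variable {Γ : Type*} [Group Γ] {H : Type*} [NormedAddCommGroup H] [InnerProductSpace ℝ H]
  (π : Γ →* (H →ₗᵢ[ℝ] H))

theorem ap_mul (g h : Γ) (w : H) : π (g * h) w = π g (π h w) := by
  rw [map_mul]; rfl

theorem ap_one (w : H) : π 1 w = w := by
  rw [map_one]; rfl

theorem ap_inv (g : Γ) (w : H) : π g (π g⁻¹ w) = w := by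
  rw [← ap_mul, mul_inv_cancel, ap_one]

theorem inv_ap (g : Γ) (w : H) : π g⁻¹ (π g w) = w := by
  rw [← ap_mul, inv_mul_cancel, ap_one]

theorem inner_ap (g : Γ) (v w : H) : ⟪π g v, w⟫_ℝ = ⟪v, π g⁻¹ w⟫_ℝ := by
  conv_lhs => rw [← ap_inv π g w]
  exact (π g).inner_map_map _ _

theorem inv_fix {g : Γ} {w : H} (h : π g w = w) : π g⁻¹ w = w := by
  conv_lhs => rw [← h]
  exact inv_ap π g w

/-- displacement -/
noncomputable def dp (g : Γ) (w : H) : ℝ := ‖π g w - w‖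

theorem dp_nonneg (g : Γ) (w : H) : 0 ≤ dp π g w := norm_nonneg _

theorem dp_mul (g h : Γ) (w : H) : dp π (g * h) w ≤ dp π g w + dp π h w := by
  unfold dp
  rw [ap_mul, show π g (π h w) - w = (π g w - w) + π g (π h w - w) by rw [map_sub]; abel]
  exact (norm_add_le _ _).trans (by rw [(π g).norm_map])

theorem dp_inv (g : Γ) (w : H) : dp π g⁻¹ w = dp π g w := by
  unfold dp
  rw [← (π g).norm_map, map_sub, ap_inv, norm_sub_rev]

theorem dp_near (g : Γ) (v w : H) : dp π g v ≤ dp π g w + 2 * ‖v - w‖ := by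
  unfold dp
  rw [show π g v - v = (π g w - w) + (π g (v - w) - (v - w)) by rw [map_sub]; abel]
  refine (norm_add_le _ _).trans ?_
  have := norm_sub_le (π g (v - w)) (v - w)
  rw [(π g).norm_map] at this
  linarith

theorem dp_fix {g : Γ} {w : H} (h : π g w = w) : dp π g w = 0 := by
  unfold dp; rw [h, sub_self, norm_zero]

theorem dp_comm (g h : Γ) (w : H) :
    dp π (g * h * g⁻¹ * h⁻¹) w ≤ 2 * dp π g w + 2 * dp π h w := by
  have h1 := dp_mul π (g * h * g⁻¹) h⁻¹ w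
  have h2 := dp_mul π (g * h) g⁻¹ w
  have h3 := dp_mul π g h w
  rw [dp_inv] at h1 h2
  linarith

/-- the vectors fixed by a set of group elements -/
def Fix (S : Set Γ) : Submodule ℝ H where
  carrier := {w | ∀ s ∈ S, π s w = w}
  zero_mem' := fun _ _ => map_zero _
  add_mem' := fun ha hb s hs => by rw [map_add, ha s hs, hb s hs]
  smul_mem' := fun c _ ha s hs => by rw [map_smul, ha s hs]

theorem isClosed_Fix (S : Set Γ) : IsClosed (Fix π S : Set H) := by
  have : (Fix π S : Set H) = ⋂ s ∈ S, {w | π s w = w} := by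
    ext w; simp [Fix]
  rw [this]
  exact isClosed_biInter fun s _ => isClosed_eq (π s).continuous continuous_id

variable [CompleteSpace H]

instance (S : Set Γ) : CompleteSpace (Fix π S) := (isClosed_Fix π S).completeSpace_coe

/-- the orthogonal projection on the fixed vectors -/
noncomputable def E (S : Set Γ) : H →L[ℝ] H := (Fix π S).starProjection

theorem E_mem (S : Set Γ) (w : H) : E π S w ∈ Fix π S := Submodule.starProjection_apply_mem _ _

theorem E_of_mem {S : Set Γ} {w : H} (h : w ∈ Fix π S) : E π S w = w :=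
  Submodule.starProjection_eq_self_iff.2 h

theorem norm_E_le (S : Set Γ) (w : H) : ‖E π S w‖ ≤ ‖w‖ :=
  Submodule.norm_starProjection_apply_le _ _

theorem inner_E (S : Set Γ) (v w : H) : ⟪E π S v, w⟫_ℝ = ⟪v, E π S w⟫_ℝ :=
  Submodule.inner_starProjection_left_eq_right _ _ _

theorem E_conj {S T : Set Γ} {g : Γ} (h1 : ∀ w ∈ Fix π S, π g w ∈ Fix π T)
    (h2 : ∀ w ∈ Fix π T, π g⁻¹ w ∈ Fix π S) (w : H) : E π T (π g w) = π g (E π S w) := by
  refine Submodule.eq_starProjection_of_mem_of_inner_eq_zero (h1 _ (E_mem π S w)) fun y hy => ?_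
  rw [← map_sub, inner_ap]
  exact Submodule.starProjection_inner_eq_zero _ _ (h2 y hy)

omit [CompleteSpace H] in
theorem mem_Fix_of_commute {S : Set Γ} {g : Γ} (h : ∀ s ∈ S, Commute s g) {w : H}
    (hw : w ∈ Fix π S) : π g w ∈ Fix π S := fun s hs => by
  rw [← ap_mul, (h s hs).eq, ap_mul, hw s hs]

theorem E_comm {S : Set Γ} {g : Γ} (h : ∀ s ∈ S, Commute s g) (w : H) :
    E π S (π g w) = π g (E π S w) :=
  E_conj π (fun _ hw => mem_Fix_of_commute π h hw)
    (fun _ hw => mem_Fix_of_commute π (fun s hs => (h s hs).inv_right) hw) w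

theorem E_mem_of_commute {S T : Set Γ} (h : ∀ s ∈ S, ∀ t ∈ T, Commute s t) {w : H}
    (hw : w ∈ Fix π T) : E π S w ∈ Fix π T := fun t ht => by
  rw [← E_comm π (fun s hs => h s hs t ht), hw t ht]

theorem norm_sub_E_le {S : Set Γ} (w : H) {y : H} (hy : y ∈ Fix π S) :
    ‖w - E π S w‖ ^ 2 ≤ ‖w - y‖ ^ 2 := by
  have h1 : ⟪w - E π S w, E π S w - y⟫_ℝ = 0 :=
    Submodule.starProjection_inner_eq_zero _ _ ((Fix π S).sub_mem (E_mem π S w) hy)
  rw [show w - y = (w - E π S w) + (E π S w - y) by abel, norm_add_sq_real, h1]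
  nlinarith [sq_nonneg ‖E π S w - y‖]

/-- the squared norm of the projection -/
noncomputable def mu (S : Set Γ) (w : H) : ℝ := ‖E π S w‖ ^ 2

theorem inner_E_E {S T Z : Set Γ} (h : ∀ s ∈ S, ∀ t ∈ T, Commute s t)
    (h1 : Fix π S ⊓ Fix π T ≤ Fix π Z) (h2 : Fix π Z ≤ Fix π S) (h3 : Fix π Z ≤ Fix π T)
    (w : H) : ⟪E π S w, E π T w⟫_ℝ = mu π Z w := by
  have e1 : E π S (E π T w) ∈ Fix π Z :=
    h1 ⟨E_mem π S _, E_mem_of_commute π h (E_mem π T w)⟩
  have e2 : E π Z w = E π S (E π T w) := by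
    refine Submodule.eq_starProjection_of_mem_of_inner_eq_zero e1 fun y hy => ?_
    rw [inner_sub_left, inner_E, inner_E, E_of_mem π (h2 hy), E_of_mem π (h3 hy), sub_self]
  rw [inner_E, ← e2, mu, ← real_inner_self_eq_norm_sq, inner_E, E_of_mem π (E_mem π Z w)]

theorem inner_E_le {S T : Set Γ} (h : Fix π T ≤ Fix π S) (w : H) :
    ⟪E π S w, E π T w⟫_ℝ = mu π T w := by
  rw [inner_E, E_of_mem π (h (E_mem π T w)), mu, ← real_inner_self_eq_norm_sq, inner_E,
    E_of_mem π (E_mem π T w)]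

theorem mu_le (S : Set Γ) (w : H) : mu π S w ≤ ‖w‖ ^ 2 :=
  pow_le_pow_left₀ (norm_nonneg _) (norm_E_le π S w) 2

theorem mu_mono {S T : Set Γ} (h : Fix π T ≤ Fix π S) (w : H) : mu π T w ≤ mu π S w := by
  have h1 := inner_E_le π h w
  have h2 := norm_sub_sq_real (E π S w) (E π T w)
  have h3 := sq_nonneg ‖E π S w - E π T w‖
  unfold mu at *
  linarith

theorem mu_nonneg (S : Set Γ) (w : H) : 0 ≤ mu π S w := sq_nonneg _

theorem norm_sub_E_sq (S : Set Γ) (w : H) : ‖w - E π S w‖ ^ 2 = ‖w‖ ^ 2 - mu π S w := by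
  have h1 : ⟪w, E π S w⟫_ℝ = mu π S w := by
    rw [mu, ← real_inner_self_eq_norm_sq, inner_E, E_of_mem π (E_mem π S w)]
  rw [norm_sub_sq_real, h1, mu]
  ring

theorem mu_split (S : Set Γ) (x y : H) :
    mu π S (x + y) + mu π S ((1 / 2 : ℝ) • x - (2 : ℝ) • y) = 5 / 4 * mu π S x + 5 * mu π S y := by
  unfold mu
  rw [map_add, map_sub, map_smul, map_smul, norm_add_sq_real, norm_sub_sq_real, norm_smul,
    norm_smul, real_inner_smul_left, real_inner_smul_right]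
  norm_num
  ring

theorem mu_conj {S T : Set Γ} {g : Γ} (h1 : ∀ w ∈ Fix π S, π g w ∈ Fix π T)
    (h2 : ∀ w ∈ Fix π T, π g⁻¹ w ∈ Fix π S) (w : H) : mu π T (π g w) = mu π S w := by
  unfold mu
  rw [E_conj π h1 h2, (π g).norm_map]

/-- three subspaces between `Fix Z` and `Fix K` that meet pairwise in `Fix Z` -/
structure Tri (K L₁ L₂ L₃ Z : Set Γ) : Prop where
  c12 : ∀ s ∈ L₁, ∀ t ∈ L₂, Commute s t
  c13 : ∀ s ∈ L₁, ∀ t ∈ L₃, Commute s t
  c23 : ∀ s ∈ L₂, ∀ t ∈ L₃, Commute s t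
  k1 : Fix π L₁ ≤ Fix π K
  k2 : Fix π L₂ ≤ Fix π K
  k3 : Fix π L₃ ≤ Fix π K
  z1 : Fix π Z ≤ Fix π L₁
  z2 : Fix π Z ≤ Fix π L₂
  z3 : Fix π Z ≤ Fix π L₃
  m12 : Fix π L₁ ⊓ Fix π L₂ ≤ Fix π Z
  m13 : Fix π L₁ ⊓ Fix π L₃ ≤ Fix π Z
  m23 : Fix π L₂ ⊓ Fix π L₃ ≤ Fix π Z

/-- the mass of the target set of a move -/
noncomputable def Qf (K L₂ L₃ Z : Set Γ) (w : H) : ℝ :=
  mu π K w - mu π L₂ w - mu π L₃ w + mu π Z w

variable {π}

theorem Tri.le {K L₁ L₂ L₃ Z : Set Γ} (h : Tri π K L₁ L₂ L₃ Z) (w : H) :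
    mu π L₁ w - mu π Z w ≤ Qf π K L₂ L₃ Z w := by
  have i12 := inner_E_E π h.c12 h.m12 h.z1 h.z2 w
  have i13 := inner_E_E π h.c13 h.m13 h.z1 h.z3 w
  have i23 := inner_E_E π h.c23 h.m23 h.z2 h.z3 w
  have k1 := inner_E_le π h.k1 w
  have k2 := inner_E_le π h.k2 w
  have k3 := inner_E_le π h.k3 w
  have k0 := inner_E_le π (h.z1.trans h.k1) w
  have z1 := inner_E_le π h.z1 w
  have z2 := inner_E_le π h.z2 w
  have z3 := inner_E_le π h.z3 w
  have e := real_inner_self_nonneg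
    (x := E π K w - E π L₁ w - E π L₂ w - E π L₃ w + E π Z w + E π Z w)
  simp only [inner_add_left, inner_add_right, inner_sub_left, inner_sub_right,
    real_inner_self_eq_norm_sq] at e
  rw [real_inner_comm (E π K w) (E π L₁ w), real_inner_comm (E π K w) (E π L₂ w),
    real_inner_comm (E π K w) (E π L₃ w), real_inner_comm (E π K w) (E π Z w),
    real_inner_comm (E π L₁ w) (E π L₂ w), real_inner_comm (E π L₁ w) (E π L₃ w),
    real_inner_comm (E π L₁ w) (E π Z w), real_inner_comm (E π L₂ w) (E π L₃ w),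
    real_inner_comm (E π L₂ w) (E π Z w), real_inner_comm (E π L₃ w) (E π Z w),
    i12, i13, i23, k1, k2, k3, k0, z1, z2, z3] at e
  unfold Qf
  unfold mu at *
  linarith

theorem Tri.nonneg {K L₁ L₂ L₃ Z : Set Γ} (h : Tri π K L₁ L₂ L₃ Z) (w : H) :
    0 ≤ Qf π K L₂ L₃ Z w :=
  le_trans (sub_nonneg.2 (mu_mono π h.z1 w)) (h.le w)

/-- The move lemma. -/
theorem Tri.move {K L₁ L₂ L₃ Z X Y : Set Γ} (h : Tri π K L₁ L₂ L₃ Z) {g : Γ} (ξ : H)
    (hX : mu π L₁ (π g ξ) = mu π X ξ) (hY : mu π Z (π g ξ) = mu π Y ξ) :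
    mu π X ξ - mu π Y ξ ≤ 5 / 4 * Qf π K L₂ L₃ Z ξ + 5 * Qf π K L₂ L₃ Z (π g ξ - ξ) := by
  have h1 := h.le (π g ξ)
  have h2 := h.nonneg ((1 / 2 : ℝ) • ξ - (2 : ℝ) • (π g ξ - ξ))
  have e1 := mu_split π K ξ (π g ξ - ξ)
  have e2 := mu_split π L₂ ξ (π g ξ - ξ)
  have e3 := mu_split π L₃ ξ (π g ξ - ξ)
  have e4 := mu_split π Z ξ (π g ξ - ξ)
  rw [add_sub_cancel] at e1 e2 e3 e4
  unfold Qf at *
  linarith

variable (π)

/-- A vector with a small orbit under a semigroup is close to a fixed vector. -/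
theorem exists_fix {S : Set Γ} (h1 : (1 : Γ) ∈ S) (hm : ∀ s ∈ S, ∀ t ∈ S, s * t ∈ S) (v : H)
    {δ : ℝ} (h : ∀ s ∈ S, dp π s v ≤ δ) : ∃ y ∈ Fix π S, ‖v - y‖ ≤ δ := by
  set O : Set H := (fun s => π s v) '' S with hO
  set K : Set H := closedConvexHull ℝ O with hK
  have hOK : O ⊆ K := subset_closedConvexHull
  have hKc : Convex ℝ K := convex_closedConvexHull
  have hKcl : IsClosed K := isClosed_closedConvexHull
  obtain ⟨y, hy, hmin⟩ := exists_norm_eq_iInf_of_complete_convex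
    ⟨_, hOK ⟨1, h1, rfl⟩⟩ hKcl.isComplete hKc 0
  have hle : ∀ z ∈ K, ‖y‖ ≤ ‖z‖ := fun z hz => by
    have h2 : ‖(0 : H) - y‖ ≤ ‖(0 : H) - z‖ := by
      rw [hmin]
      exact ciInf_le ⟨0, by rintro _ ⟨w, rfl⟩; exact norm_nonneg _⟩ (⟨z, hz⟩ : K)
    simpa using h2
  refine ⟨y, fun t ht => ?_, ?_⟩
  · have h2 : K ⊆ (π t) ⁻¹' K := by
      refine closedConvexHull_min ?_ (hKc.linear_preimage (π t).toLinearMap)
        (hKcl.preimage (π t).continuous)
      rintro _ ⟨s, hs, rfl⟩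
      exact hOK ⟨t * s, hm t ht s hs, ap_mul π t s v⟩
    have h3 := hle _ (hKc (h2 hy) hy (a := 1 / 2) (b := 1 / 2) (by norm_num) (by norm_num)
      (by norm_num))
    rw [← smul_add, norm_smul] at h3
    have h4 := parallelogram_law_with_norm ℝ (π t y) y
    rw [(π t).norm_map] at h4
    have h5 : ‖(1 / 2 : ℝ)‖ = 1 / 2 := by norm_num
    rw [h5] at h3
    have h6 : ‖π t y - y‖ * ‖π t y - y‖ ≤ 0 := by
      nlinarith [norm_nonneg y, norm_nonneg (π t y + y)]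
    have h7 : ‖π t y - y‖ = 0 := by nlinarith [norm_nonneg (π t y - y)]
    exact sub_eq_zero.1 (norm_eq_zero.1 h7)
  · have h2 : K ⊆ Metric.closedBall v δ := by
      refine closedConvexHull_min ?_ (convex_closedBall _ _) Metric.isClosed_closedBall
      rintro _ ⟨s, hs, rfl⟩
      rw [mem_closedBall_iff_norm]
      exact h s hs
    have := h2 hy
    rwa [mem_closedBall_iff_norm'] at this

/-- The same for finitely many commuting semigroups. -/
theorem exists_fix_family {ι : Type*} (J : Finset ι) (X : ι → Set Γ) (h1 : ∀ j, (1 : Γ) ∈ X j)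
    (hm : ∀ j, ∀ s ∈ X j, ∀ t ∈ X j, s * t ∈ X j)
    (hc : ∀ i j, ∀ s ∈ X i, ∀ t ∈ X j, Commute s t) (v : H) {δ : ℝ}
    (h : ∀ j, ∀ s ∈ X j, dp π s v ≤ δ) :
    ∃ y, (∀ j ∈ J, y ∈ Fix π (X j)) ∧ ‖v - y‖ ≤ J.card * δ := by
  classical
  induction J using Finset.induction_on with
  | empty => exact ⟨v, by simp, by simp⟩
  | insert j J hj ih =>
    obtain ⟨y, hy, hy'⟩ := ih
    obtain ⟨z, hz, hz'⟩ := exists_fix π (h1 j) (hm j) v (h j)
    refine ⟨E π (X j) y, fun i hi => ?_, ?_⟩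
    · rcases Finset.mem_insert.1 hi with rfl | hi
      · exact E_mem π _ _
      · exact E_mem_of_commute π (hc j i) (hy i hi)
    · have h2 := norm_sub_E_le π v hz
      have h3 : ‖v - E π (X j) v‖ ≤ ‖v - z‖ :=
        (pow_le_pow_iff_left₀ (norm_nonneg _) (norm_nonneg _) two_ne_zero).1 h2
      have h4 := norm_E_le π (X j) (v - y)
      rw [Finset.card_insert_of_notMem hj,
        show v - E π (X j) y = (v - E π (X j) v) + E π (X j) (v - y) by rw [map_sub]; abel]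
      refine (norm_add_le _ _).trans ?_
      push_cast
      linarith

end Vale.Agent.N192T
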