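import Vale.Agent.N192T.Up
import Vale.Agent.N192T.Defs

/-!
# P192, property (T): Steinberg groups, subgroups of finite index, non-amenability
-/

namespace Vale.Agent.N192T

open scoped InnerProductSpace Pointwise ENNReal
open Vale.Agent.N192

universe u

/-- property (T) for real Hilbert spaces, in homogeneous form -/
def TR (G : Type) [Group G] : Prop :=
  ∃ (S : Finset G) (ε : ℝ), 0 < ε ∧
    ∀ (H : Type u) [NormedAddCommGroup H] [InnerProductSpace ℝ H] [CompleteSpace H]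
      (π : G →* (H →ₗᵢ[ℝ] H)) (ξ : H), ξ ≠ 0 → (∀ s ∈ S, dp π s ξ ≤ ε * ‖ξ‖) →
      ∃ η : H, η ≠ 0 ∧ ∀ g, π g η = η

theorem TR.kazhdan {G : Type} [Group G] (h : TR.{u} G) : Kazhdan.{u} G := by
  obtain ⟨S, ε, hε, h⟩ := h
  refine ⟨S, ε, hε, fun H _ _ _ π ξ hξ hs => ?_⟩
  let : InnerProductSpace ℝ H := InnerProductSpace.complexToReal
  let ρ : G →* (H →ₗᵢ[ℝ] H) :=
    { toFun := fun g =>
        { toFun := π g
          map_add' := map_add _
          map_smul' := fun c y => map_smul (π g) (c : ℂ) y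
          norm_map' := (π g).norm_map }
      map_one' := by ext y; simp
      map_mul' := fun g h => by ext y; simp }
  exact h H ρ ξ (fun e => by simp [e] at hξ) fun s hs' => by
    rw [hξ, mul_one]
    exact (hs s hs').le

theorem exists_cyc (I : Type) [Fintype I] [Nonempty I] :
    ∃ c : ℕ → I, ∀ i k, ∃ l, k ≤ l ∧ c l = i := by
  have hpos : 0 < Fintype.card I := Fintype.card_pos
  let e := Fintype.equivFin I
  refine ⟨fun k => e.symm ⟨k % Fintype.card I, Nat.mod_lt _ hpos⟩, fun i k =>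
    ⟨Fintype.card I * k + e i, ?_, ?_⟩⟩
  · nlinarith [Nat.zero_le (e i : ℕ)]
  · rw [Equiv.symm_apply_eq]
    exact Fin.ext (by simp [Nat.mod_eq_of_lt (e i).2])

section St

variable {A : Type} [Ring A]

/-- the filtration -/
def flt {I : Type} (α : I → A) (c : ℕ → I) : ℕ → AddSubgroup A
  | 0 => AddSubgroup.zmultiples 1
  | k + 1 => flt α c k ⊔ (flt α c k).map (AddMonoidHom.mulLeft (α (c k)))

theorem flt_fl {I : Type} (α : I → A) (c : ℕ → I) : Fl α c (flt α c) :=
  ⟨fun _ => le_sup_left, fun _ a ha => AddSubgroup.mem_sup_right ⟨a, ha, rfl⟩,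
    fun _ _ h1 h2 => sup_le h1 (by rintro _ ⟨a, ha, rfl⟩; exact h2 a ha)⟩

theorem st_TR {Γ ι X : Type} [Group Γ] [Fintype ι] [Fintype X] {x : ι → ι → A → Γ}
    (h : IsSt (fun (i j : ι) (_ : A) => i ≠ j) x) (h5 : Fintype.card ι ≤ 5) (c₀ : ι)
    (h3 : ∀ i j : ι, ∃ p, i ≠ p ∧ j ≠ p)
    (hx : ∀ K : Subgroup Γ, (∀ i j a, i ≠ j → x i j a ∈ K) → ∀ g, g ∈ K) (gen : X → A)
    (hgen : ∀ q : A → Prop, q 0 → (∀ w : List X, q (w.map gen).prod) →
      (∀ a b, q a → q b → q (a + b)) → ∀ a, q a)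
    (hfin : (AddSubgroup.zmultiples (1 : A) : Set A).Finite) : TR.{u} Γ := by
  classical
  let α : Option X → A := fun o => o.elim 1 gen
  obtain ⟨c, hc⟩ := exists_cyc (Option X)
  have F := flt_fl α c
  have hmono : Monotone (flt α c) := monotone_nat_of_le_succ F.le
  have hall : ∀ a, ∃ M, a ∈ flt α c M := by
    refine hgen _ ⟨0, zero_mem _⟩ (fun w => ?_) ?_
    · induction w with
      | nil => exact ⟨0, AddSubgroup.mem_zmultiples _⟩
      | cons y w ih =>
        obtain ⟨M, hM⟩ := ih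
        obtain ⟨l, hl, e⟩ := hc (some y) M
        have := F.mul l _ (hmono hl hM)
        rw [e] at this
        exact ⟨l + 1, by rw [List.map_cons, List.prod_cons]; exact this⟩
    · rintro a b ⟨M, hM⟩ ⟨N, hN⟩
      exact ⟨max M N, add_mem (hmono (le_max_left _ _) hM) (hmono (le_max_right _ _) hN)⟩
  set C : ℝ := 30 * (Fintype.card (Option X) + 1) with hC
  have C0 : 0 < C := by positivity
  let T : Finset A := hfin.toFinset ∪ Finset.univ.image α
  refine ⟨(Finset.univ ×ˢ Finset.univ ×ˢ T).image fun t => x t.1 t.2.1 t.2.2, 1 / (C * 10 ^ 59),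
    by positivity, fun H _ _ _ π ξ hξ hs => ?_⟩
  have hT : ∀ i j, ∀ a ∈ T, dp π (x i j a) ξ ≤ 1 / (C * 10 ^ 59) * ‖ξ‖ := fun i j a ha =>
    hs _ (Finset.mem_image.2 ⟨(i, j, a), by simp [ha], rfl⟩)
  have hα : ∀ o, α o ∈ T := fun o =>
    Finset.mem_union_right _ (Finset.mem_image_of_mem _ (Finset.mem_univ o))
  have hB : ∀ a ∈ flt α c 0, a ∈ T := fun a ha =>
    Finset.mem_union_left _ (hfin.mem_toFinset.2 ha)
  have hn : 0 < ‖ξ‖ := norm_pos_iff.2 hξ
  have hroot : ∀ i k, i ≠ k → ∀ a, dp π (x i k a) ξ ≤ ‖ξ‖ / 10 ^ 59 := fun i k hik a => by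
    obtain ⟨j, hij, hkj⟩ := h3 i k
    obtain ⟨M, hM⟩ := hall a
    have mv : ∀ {i j : ι}, i ≠ k → j ≠ k → i ≠ j → ∀ b, Mv (x i k) (x j k) (x j i b) b :=
      fun hi hj hij b => ⟨fun a => h.conj_left hij.symm hi hj,
        fun a => h.conj_comm hij.symm hj hij hj⟩
    have := rel_T π F (u := x i k) (v := x j k) ⟨fun _ _ => h.add hik hik,
      fun _ _ => h.add hkj.symm hkj.symm, fun _ _ => h.comm hik hkj.symm hkj hik⟩
      (g := fun o => x j i (α o)) (g' := fun o => x i j (α o))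
      (fun o => mv hik hkj.symm hij _) (fun o => mv hkj.symm hik hij.symm _) (i₀ := none) rfl ξ
      (fun o => hT _ _ _ (hα o)) (fun o => hT _ _ _ (hα o)) (fun a ha => hT _ _ _ (hB a ha))
      (fun a ha => hT _ _ _ (hB a ha)) hM
    refine this.trans (le_of_eq ?_)
    rw [← hC]
    field_simp
  obtain ⟨v, hv, nv⟩ := near_col π h h5 c₀ ξ (δ := ‖ξ‖ / 10 ^ 59) (by positivity)
    fun i hi a => hroot i c₀ hi a
  obtain ⟨w, hw, nw⟩ := near_row π h h5 c₀ ξ (δ := ‖ξ‖ / 10 ^ 59) (by positivity)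
    fun i hi a => hroot c₀ i hi a
  obtain ⟨z, hz, nz⟩ := exists_inv π h h5 h3 hv hw
  refine ⟨z, fun e => ?_, fun g => ?_⟩
  · have e1 := norm_sub_le_norm_sub_add_norm_sub v ξ w
    have e2 := norm_sub_le_norm_sub_add_norm_sub ξ v z
    rw [norm_sub_rev v ξ] at e1
    rw [e, sub_zero] at e2
    rw [e] at nz
    linarith
  · exact hx
      { carrier := {g | π g z = z}
        one_mem' := ap_one π z
        mul_mem' := fun {a b} (ha : π a z = z) (hb : π b z = z) => by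
          show π (a * b) z = z
          rw [ap_mul, hb, ha]
        inv_mem' := fun ha => inv_fix π ha } (fun i j a hij => hz i j hij a) g

end St

section Ind

variable {G : Type} [Group G] (Λ : Subgroup G)

/-- the cocycle of the chosen section -/
noncomputable def coc (g : G) (q : G ⧸ Λ) : Λ :=
  ⟨(g • q).out⁻¹ * (g * q.out), QuotientGroup.eq.1 (by
    rw [QuotientGroup.out_eq']
    exact (MulAction.Quotient.mk_smul_out Λ g q).symm)⟩

theorem coc_mul (g h : G) (q : G ⧸ Λ) : coc Λ (g * h) q = coc Λ g (h • q) * coc Λ h q := by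
  apply Subtype.ext
  simp only [coc, mul_smul, Subgroup.coe_mul]
  group

theorem coc_one (q : G ⧸ Λ) : coc Λ 1 q = 1 := by
  apply Subtype.ext
  simp [coc]

theorem TR.finiteIndex (h : TR.{u} G) [Λ.FiniteIndex] : TR.{u} Λ := by
  classical
  obtain ⟨S, ε, hε, h⟩ := h
  let : Fintype (G ⧸ Λ) := Fintype.ofFinite _
  refine ⟨(S ×ˢ Finset.univ).image fun t => coc Λ t.1 t.2, ε, hε, fun H _ _ _ π ξ hξ hs => ?_⟩
  let ρ : G →* (PiLp 2 (fun _ : G ⧸ Λ => H) →ₗᵢ[ℝ] PiLp 2 (fun _ : G ⧸ Λ => H)) :=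
    { toFun := fun g =>
        { toFun := fun f => WithLp.toLp 2 fun q => π (coc Λ g (g⁻¹ • q)) (f (g⁻¹ • q))
          map_add' := fun f f' => by ext q; simp
          map_smul' := fun c f => by ext q; simp
          norm_map' := fun f => by
            refine (pow_left_inj₀ (norm_nonneg _) (norm_nonneg _) two_ne_zero).1 ?_
            rw [PiLp.norm_sq_eq_of_L2, PiLp.norm_sq_eq_of_L2,
              ← Equiv.sum_comp (MulAction.toPerm g⁻¹) fun q => ‖f q‖ ^ 2]
            exact Finset.sum_congr rfl fun q _ => congrArg (· ^ 2) ((π _).norm_map _) }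
      map_one' := by
        ext f q
        show π (coc Λ 1 ((1 : G)⁻¹ • q)) (f ((1 : G)⁻¹ • q)) = f q
        rw [coc_one, ap_one, inv_one, one_smul]
      map_mul' := fun g g' => by
        ext f q
        show π (coc Λ (g * g') ((g * g')⁻¹ • q)) (f ((g * g')⁻¹ • q)) =
          π (coc Λ g (g⁻¹ • q)) (π (coc Λ g' (g'⁻¹ • g⁻¹ • q)) (f (g'⁻¹ • g⁻¹ • q)))
        rw [coc_mul, ap_mul, mul_inv_rev, mul_smul, smul_inv_smul] }
  have hρ : ∀ g f q, ρ g f q = π (coc Λ g (g⁻¹ • q)) (f (g⁻¹ • q)) := fun _ _ _ => rfl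
  obtain ⟨F, hF, hinv⟩ := h _ ρ (WithLp.toLp 2 fun _ => ξ)
    (fun e => hξ (congrArg (fun f : PiLp 2 (fun _ : G ⧸ Λ => H) => f ((1 : G) : G ⧸ Λ)) e))
    (fun s hs' => by
      refine (pow_le_pow_iff_left₀ (dp_nonneg _ _ _) (by positivity) two_ne_zero).1 ?_
      rw [dp, mul_pow, PiLp.norm_sq_eq_of_L2, PiLp.norm_sq_eq_of_L2, Finset.mul_sum]
      refine Finset.sum_le_sum fun q _ => ?_
      rw [← mul_pow]
      exact pow_le_pow_left₀ (norm_nonneg _)
        (hs _ (Finset.mem_image.2 ⟨(s, s⁻¹ • q), by simp [hs'], rfl⟩)) 2)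
  have key : ∀ g q, F (g • q) = π (coc Λ g q) (F q) := fun g q => by
    have := hρ g F (g • q)
    rwa [hinv, inv_smul_smul] at this
  set q₀ : G ⧸ Λ := ((1 : G) : G ⧸ Λ) with hq
  have hr : q₀.out ∈ Λ := by
    have : ((1 : G) : G ⧸ Λ) = (q₀.out : G) := (QuotientGroup.out_eq' q₀).symm
    simpa using QuotientGroup.eq.1 this
  refine ⟨F q₀, fun e => hF ?_, fun l => ?_⟩
  · ext q
    obtain ⟨g, rfl⟩ := QuotientGroup.mk_surjective q
    have e1 : (g : G ⧸ Λ) = g • q₀ := by rw [hq, MulAction.Quotient.smul_mk, smul_eq_mul, mul_one]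
    rw [e1, key, e, map_zero]
    rfl
  · have e1 : (q₀.out * l * q₀.out⁻¹) • q₀ = q₀ := by
      rw [hq, MulAction.Quotient.smul_mk, smul_eq_mul, mul_one, eq_comm, QuotientGroup.eq, inv_one,
        one_mul]
      exact mul_mem (mul_mem hr l.2) (inv_mem hr)
    have e2 : coc Λ (q₀.out * l * q₀.out⁻¹) q₀ = l := by
      apply Subtype.ext
      simp only [coc, e1]
      group
    have := key (q₀.out * l * q₀.out⁻¹) q₀
    rw [e1, e2] at this
    exact this.symm

end Ind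

end Vale.Agent.N192T
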