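import Vale.Agent.N192.Main
import Vale.Agent.N192T.Am

/-!
# P192, property (T): the groups
-/

namespace Vale.Agent.N192T

open Vale.Agent.N192

universe u

theorem finPres_of {G : Type} [Group G] (h : Group.IsFinitelyPresented G) : FinPres G := by
  obtain ⟨n, s, hs, ⟨e⟩⟩ := Group.IsFinitelyPresented.exists_mulEquiv_presentedGroup (G := G)
  obtain ⟨R, rfl⟩ := hs.exists_finset_coe
  exact ⟨n, R, ⟨e⟩⟩

theorem main (p : ℕ) [Fact p.Prime] :
    ∃ (G : Type) (_ : Group G) (Λ : Subgroup G), Λ.FiniteIndex ∧ Group.IsFinitelyPresented G ∧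
      Infinite Λ ∧ IsPGroup p Λ ∧ commutator G = ⊤ ∧ TR.{u} G ∧ TR.{0} G := by
  obtain ⟨X, _, P, h1, h2, ⟨D⟩, h3⟩ := algebra_main p
  obtain ⟨K, hK, hfin, hker, hidx⟩ := exists_quot D.eps
  have := st_fp p P h1 h2 (unNet D.eps).ok (unNet_ok D.eps)
  have hs := (un_isSt D.eps).map (QuotientGroup.mk' K)
  have hx : ∀ L : Subgroup (St (unNet D.eps).ok ⧸ K),
      (∀ i j a, i ≠ j → QuotientGroup.mk' K (St.x (unNet D.eps).ok i j a) ∈ L) → ∀ g, g ∈ L := by
    intro L hL g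
    obtain ⟨g, rfl⟩ := QuotientGroup.mk'_surjective K g
    exact St.mem_of_gen (L.comap (QuotientGroup.mk' K))
      (fun i j a ha => hL i j a ((unNet_ok ..).1 ha)) g
  have h5 : ∀ i j : Fin 5, ∃ k, i ≠ k ∧ j ≠ k := by decide
  have hz : (AddSubgroup.zmultiples (1 : Alg p P) : Set (Alg p P)).Finite :=
    (Set.finite_range (algebraMap (ZMod p) (Alg p P))).subset (by
      rintro _ ⟨n, rfl⟩
      exact ⟨n, by simp⟩)
  refine ⟨_, inferInstance, _, hidx, Group.IsFinitelyPresented.quotient K hfin, ?_, ?_, ?_,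
    st_TR hs (by simp) 0 h5 hx D.gen D.ind hz, st_TR hs (by simp) 0 h5 hx D.gen D.ind hz⟩
  · rw [← not_finite_iff_infinite]
    intro hf
    obtain ⟨B, _, _, θ, hθ, hn⟩ :=
      h3 (Nat.card ((iwToUn D.eps).range.map (QuotientGroup.mk' K)) + 1)
    let Θ : St (unNet D.eps).ok ⧸ K →* (Matrix (Fin 5) (Fin 5) B)ˣ := QuotientGroup.lift K
      ((Units.map θ.mapMatrix.toMonoidHom).comp (phiU (unNet D.eps).closed)) fun g hg => by
        have : phiU (unNet D.eps).closed g = 1 := Units.ext (hker hg)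
        rw [MonoidHom.mem_ker, MonoidHom.comp_apply, this, map_one]
    refine absurd (hn.trans (Nat.card_le_card_of_surjective
      (fun u : (iwToUn D.eps).range.map (QuotientGroup.mk' K) =>
        (Θ u.1 : Matrix (Fin 5) (Fin 5) B) 0 1) fun b => ?_)) (by omega)
    obtain ⟨a, rfl⟩ := hθ b
    have ha : (iwNet D.eps).ok 0 1 a := (iwNet_ok ..).2 ⟨by decide, Or.inl (by decide)⟩
    refine ⟨⟨_, _, ⟨St.x _ 0 1 a, rfl⟩, rfl⟩, ?_⟩
    show θ (phi (unNet D.eps).closed (iwToUn D.eps (St.x _ 0 1 a)) 0 1) = θ a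
    rw [phi_iwToUn, phi_x _ ha]
    simp
  · rintro ⟨_, _, ⟨y, rfl⟩, rfl⟩
    obtain ⟨d, hd⟩ := iw_pow D y
    exact ⟨d, Subtype.ext (by rw [Subgroup.coe_pow, ← map_pow, hd, map_one]; rfl)⟩
  · refine (Subgroup.eq_top_iff' _).2 (hx _ fun i j a hij => ?_)
    obtain ⟨k, hik, hjk⟩ := h5 i j
    have := hs.mul (a := a) (b := 1) hik hjk.symm hij
    rw [mul_one] at this
    rw [← this]
    exact Subgroup.commutator_mem_commutator (Subgroup.mem_top _) (Subgroup.mem_top _)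

end Vale.Agent.N192T
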