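import Vale.Agent.N192T.Fix

/-!
# P192, property (T): the relative property for a plane `A × A` under elementary moves
-/

namespace Vale.Agent.N192T

open scoped InnerProductSpace
open Finset

variable {Γ : Type*} [Group Γ] {H : Type*} [NormedAddCommGroup H] [InnerProductSpace ℝ H]
  (π : Γ →* (H →ₗᵢ[ℝ] H)) {A : Type*} [Ring A]

/-- an additive one-parameter family -/
def Ad (u : A → Γ) : Prop := ∀ a b, u (a + b) = u a * u b

theorem Ad.zero {u : A → Γ} (h : Ad u) : u 0 = 1 := by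
  have := h 0 0
  rw [add_zero] at this
  exact left_eq_mul.mp this

theorem Ad.neg {u : A → Γ} (h : Ad u) (a : A) : u (-a) = (u a)⁻¹ :=
  eq_inv_of_mul_eq_one_left (by rw [← h, neg_add_cancel, h.zero])

theorem Ad.comm {u : A → Γ} (h : Ad u) (a b : A) : Commute (u a) (u b) := by
  rw [Commute, SemiconjBy, ← h, ← h, add_comm]

/-- the parameters that fix a vector -/
def stab {u : A → Γ} (h : Ad u) (w : H) : AddSubgroup A where
  carrier := {a | π (u a) w = w}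
  zero_mem' := by simp only [Set.mem_ofPred_eq]; rw [h.zero, ap_one]
  add_mem' := fun {a b} ha hb => by
    simp only [Set.mem_ofPred_eq] at *; rw [h, ap_mul, hb, ha]
  neg_mem' := fun {a} ha => by
    simp only [Set.mem_ofPred_eq] at *; rw [h.neg]; exact inv_fix π ha

/-- two commuting families -/
structure Pl (u v : A → Γ) : Prop where
  hu : Ad u
  hv : Ad v
  comm : ∀ a b, Commute (u a) (v b)

theorem Pl.symm {u v : A → Γ} (h : Pl u v) : Pl v u := ⟨h.hv, h.hu, fun a b => (h.comm b a).symm⟩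

/-- the group elements with parameters in `X` and `Y` -/
def bx (u v : A → Γ) (X Y : AddSubgroup A) : Set Γ := u '' X ∪ v '' Y

theorem mem_bx {u v : A → Γ} {X Y : AddSubgroup A} {w : H} :
    w ∈ Fix π (bx u v X Y) ↔ (∀ a ∈ X, π (u a) w = w) ∧ ∀ b ∈ Y, π (v b) w = w := by
  refine ⟨fun h => ⟨fun a ha => h _ (Or.inl ⟨a, ha, rfl⟩), fun b hb => h _ (Or.inr ⟨b, hb, rfl⟩)⟩,
    fun h => ?_⟩
  rintro _ (⟨a, ha, rfl⟩ | ⟨b, hb, rfl⟩)
  exacts [h.1 a ha, h.2 b hb]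

/-- the plane -/
def pl (u v : A → Γ) : Set Γ := {g | ∃ a b, g = u a * v b}

theorem Pl.pl_comm {u v : A → Γ} (h : Pl u v) {s t : Γ} (hs : s ∈ pl u v) (ht : t ∈ pl u v) :
    Commute s t := by
  obtain ⟨a, b, rfl⟩ := hs
  obtain ⟨c, d, rfl⟩ := ht
  exact ((h.hu.comm a c).mul_right (h.comm a d)).mul_left
    ((h.comm c b).symm.mul_right (h.hv.comm b d))

theorem Pl.bx_sub {u v : A → Γ} (h : Pl u v) (X Y : AddSubgroup A) : bx u v X Y ⊆ pl u v := by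
  rintro _ (⟨a, -, rfl⟩ | ⟨b, -, rfl⟩)
  · exact ⟨a, 0, by rw [h.hv.zero, mul_one]⟩
  · exact ⟨0, b, by rw [h.hu.zero, one_mul]⟩

/-- an elementary move -/
structure Mv (u v : A → Γ) (g : Γ) (α : A) : Prop where
  cu : ∀ a, g * u a * g⁻¹ = v (α * a) * u a
  cv : ∀ b, g * v b * g⁻¹ = v b

/-- the conjugated set -/
def cj (g : Γ) (S : Set Γ) : Set Γ := (fun s => g * s * g⁻¹) '' S

theorem mem_cj {u v : A → Γ} {g : Γ} {α : A} (m : Mv u v g α) {X Y : AddSubgroup A} {w : H} :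
    w ∈ Fix π (cj g (bx u v X Y)) ↔
      (∀ a ∈ X, π (v (α * a)) (π (u a) w) = w) ∧ ∀ b ∈ Y, π (v b) w = w := by
  refine ⟨fun h => ⟨fun a ha => ?_, fun b hb => ?_⟩, fun h => ?_⟩
  · rw [← ap_mul, ← m.cu]
    exact h _ ⟨_, Or.inl ⟨a, ha, rfl⟩, rfl⟩
  · rw [← m.cv]
    exact h _ ⟨_, Or.inr ⟨b, hb, rfl⟩, rfl⟩
  · rintro _ ⟨_, ⟨a, ha, rfl⟩ | ⟨b, hb, rfl⟩, rfl⟩
    · simp only
      rw [m.cu, ap_mul]
      exact h.1 a ha
    · simp only
      rw [m.cv]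
      exact h.2 b hb

theorem cj_sub {u v : A → Γ} (h : Pl u v) {g : Γ} {α : A} (m : Mv u v g α) (X Y : AddSubgroup A) :
    cj g (bx u v X Y) ⊆ pl u v := by
  rintro _ ⟨_, ⟨a, -, rfl⟩ | ⟨b, -, rfl⟩, rfl⟩
  · exact ⟨a, α * a, by simp only; rw [m.cu, (h.comm a _).eq]⟩
  · exact ⟨0, b, by simp only; rw [m.cv, h.hu.zero, one_mul]⟩

theorem bx_mono {u v : A → Γ} {X Y X' Y' : AddSubgroup A} (h1 : X ≤ X') (h2 : Y ≤ Y') :
    Fix π (bx u v X' Y') ≤ Fix π (bx u v X Y) := fun _ hw =>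
  (mem_bx π).2 ⟨fun a ha => ((mem_bx π).1 hw).1 a (h1 ha), fun a ha => ((mem_bx π).1 hw).2 a (h2 ha)⟩

theorem fix_u {u v : A → Γ} (h : Pl u v) {a b : A} {w : H} (h1 : π (v b) (π (u a) w) = w)
    (h2 : π (v b) w = w) : π (u a) w = w := by
  rwa [← ap_mul, ← (h.comm a b).eq, ap_mul, h2] at h1

variable [CompleteSpace H]

theorem mu_cj (g : Γ) (S : Set Γ) (w : H) : mu π (cj g S) (π g w) = mu π S w := by
  refine mu_conj π (fun y hy => ?_) (fun y hy s hs => ?_) w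
  · rintro _ ⟨s, hs, rfl⟩
    simp only
    rw [ap_mul, inv_ap, ap_mul, hy s hs]
  · have := congrArg (π g⁻¹) (hy _ ⟨s, hs, rfl⟩)
    simp only at this
    rwa [ap_mul, ap_mul, inv_ap] at this

/-- the mass of a box -/
noncomputable def mb (u v : A → Γ) (X Y : AddSubgroup A) (w : H) : ℝ := mu π (bx u v X Y) w

theorem mb_swap (u v : A → Γ) (X Y : AddSubgroup A) (w : H) : mb π v u Y X w = mb π u v X Y w := by
  unfold mb bx
  rw [Set.union_comm]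

theorem mb_mono (u v : A → Γ) {X Y X' Y' : AddSubgroup A} (h1 : X ≤ X') (h2 : Y ≤ Y') (w : H) :
    mb π u v X' Y' w ≤ mb π u v X Y w := mu_mono π (bx_mono π h1 h2) w

/-- the mass of the target set -/
noncomputable def Qb (u v : A → Γ) (X₀ X₁ Y₀ Y₁ : AddSubgroup A) (w : H) : ℝ :=
  mb π u v X₀ Y₀ w - mb π u v X₁ Y₀ w - mb π u v X₀ Y₁ w + mb π u v X₁ Y₁ w

theorem move {u v : A → Γ} (h : Pl u v) {g : Γ} {α : A} (m : Mv u v g α)
    {X₀ X₁ Y₀ Y₁ : AddSubgroup A} (hX : X₀ ≤ X₁) (hY : Y₀ ≤ Y₁) (h0 : ∀ a ∈ X₀, α * a ∈ Y₀)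
    (h1 : ∀ a ∈ X₁, α * a ∈ Y₁)
    (hg : ∀ T : AddSubgroup A, Y₀ ≤ T → (∀ a ∈ X₁, α * a ∈ T) → Y₁ ≤ T) :
    (∀ w, 0 ≤ Qb π u v X₀ X₁ Y₀ Y₁ w) ∧ ∀ ξ, mb π u v X₁ Y₀ ξ - mb π u v X₁ Y₁ ξ ≤
      5 / 4 * Qb π u v X₀ X₁ Y₀ Y₁ ξ + 5 * Qb π u v X₀ X₁ Y₀ Y₁ (π g ξ - ξ) := by
  have a1 : ∀ Y ≤ Y₁, Fix π (bx u v X₁ Y₁) ≤ Fix π (cj g (bx u v X₁ Y)) := fun Y hY w hw => by
    obtain ⟨e1, e2⟩ := (mem_bx π).1 hw
    exact (mem_cj π m).2 ⟨fun a ha => by rw [e1 a ha, e2 _ (h1 a ha)], fun b hb => e2 b (hY hb)⟩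
  have T : Tri π (bx u v X₀ Y₀) (cj g (bx u v X₁ Y₀)) (bx u v X₁ Y₀) (bx u v X₀ Y₁)
      (bx u v X₁ Y₁) := by
    refine ⟨fun s hs t ht => h.pl_comm (cj_sub h m _ _ hs) (h.bx_sub _ _ ht),
      fun s hs t ht => h.pl_comm (cj_sub h m _ _ hs) (h.bx_sub _ _ ht),
      fun s hs t ht => h.pl_comm (h.bx_sub _ _ hs) (h.bx_sub _ _ ht), fun w hw => ?_,
      bx_mono π hX le_rfl, bx_mono π le_rfl hY, a1 _ hY, bx_mono π le_rfl hY, bx_mono π hX le_rfl,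
      fun w hw => ?_, fun w hw => ?_, fun w hw => ?_⟩
    · obtain ⟨e1, e2⟩ := (mem_cj π m).1 hw
      exact (mem_bx π).2 ⟨fun a ha => fix_u π h (e1 a (hX ha)) (e2 _ (h0 a ha)), e2⟩
    · obtain ⟨e1, e2⟩ := (mem_cj π m).1 hw.1
      obtain ⟨e3, -⟩ := (mem_bx π).1 hw.2
      refine (mem_bx π).2 ⟨e3, hg (stab π h.hv w) e2 fun a ha => ?_⟩
      have := e1 a ha
      rwa [e3 a ha] at this
    · obtain ⟨e1, -⟩ := (mem_cj π m).1 hw.1
      obtain ⟨-, e3⟩ := (mem_bx π).1 hw.2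
      exact (mem_bx π).2 ⟨fun a ha => fix_u π h (e1 a ha) (e3 _ (h1 a ha)), e3⟩
    · exact (mem_bx π).2 ⟨((mem_bx π).1 hw.1).1, ((mem_bx π).1 hw.2).2⟩
  refine ⟨T.nonneg, fun ξ => T.move ξ (mu_cj π g _ ξ) ?_⟩
  refine Eq.trans (le_antisymm (mu_mono π (a1 _ le_rfl) _) (mu_mono π (fun w hw => ?_) _))
    (mu_cj π g _ ξ)
  obtain ⟨e1, e2⟩ := (mem_cj π m).1 hw
  exact (mem_bx π).2 ⟨fun a ha => fix_u π h (e1 a ha) (e2 _ (h1 a ha)), e2⟩

/-- a filtration that grows by one generator at a time -/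
structure Fl {I : Type*} (α : I → A) (c : ℕ → I) (B : ℕ → AddSubgroup A) : Prop where
  le : ∀ k, B k ≤ B (k + 1)
  mul : ∀ k, ∀ a ∈ B k, α (c k) * a ∈ B (k + 1)
  gen : ∀ k, ∀ T : AddSubgroup A, B k ≤ T → (∀ a ∈ B k, α (c k) * a ∈ T) → B (k + 1) ≤ T

theorem tele (f : ℕ → ℝ) (M : ℕ) : ∑ k ∈ range M, (f k - f (k + 1)) = f 0 - f M :=
  sum_range_sub' f M

theorem ineq_one {I : Type*} [Fintype I] {α : I → A} {c : ℕ → I} {B : ℕ → AddSubgroup A}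
    (F : Fl α c B) {u v : A → Γ} (h : Pl u v) {g : I → Γ} (m : ∀ i, Mv u v (g i) (α i)) (ξ : H)
    (M : ℕ) :
    ∑ k ∈ range M, (mb π u v (B k) (B k) ξ - mb π u v (B k) (B (k + 1)) ξ) ≤
      5 / 4 * (‖ξ‖ ^ 2 - mb π u v (B M) (B M) ξ -
        ∑ k ∈ range M, (mb π u v (B k) (B k) ξ - mb π u v (B k) (B (k + 1)) ξ)) +
      5 * ∑ i, dp π (g i) ξ ^ 2 := by
  have key := fun k => move π h (m (c k)) (X₀ := ⊥) (X₁ := B k) (Y₀ := B k) (Y₁ := B (k + 1))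
    bot_le (F.le k) (fun a ha => by rw [AddSubgroup.mem_bot.1 ha, mul_zero]; exact zero_mem _)
    (F.mul k) (F.gen k)
  have e1 : ∑ k ∈ range M, Qb π u v ⊥ (B k) (B k) (B (k + 1)) ξ =
      mb π u v ⊥ (B 0) ξ - mb π u v ⊥ (B M) ξ -
        ∑ k ∈ range M, (mb π u v (B k) (B k) ξ - mb π u v (B k) (B (k + 1)) ξ) := by
    rw [← tele (fun k => mb π u v ⊥ (B k) ξ), ← sum_sub_distrib]
    exact sum_congr rfl fun k _ => by unfold Qb; ring
  have e2 : ∑ k ∈ range M, Qb π u v ⊥ (B k) (B k) (B (k + 1)) (π (g (c k)) ξ - ξ) ≤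
      ∑ i, dp π (g i) ξ ^ 2 := by
    calc _ ≤ ∑ k ∈ range M, ∑ i, Qb π u v ⊥ (B k) (B k) (B (k + 1)) (π (g i) ξ - ξ) :=
          sum_le_sum fun k _ => single_le_sum
            (f := fun i => Qb π u v ⊥ (B k) (B k) (B (k + 1)) (π (g i) ξ - ξ))
            (fun i _ => (key k).1 _) (mem_univ _)
      _ = ∑ i, ∑ k ∈ range M, Qb π u v ⊥ (B k) (B k) (B (k + 1)) (π (g i) ξ - ξ) := sum_comm
      _ ≤ _ := sum_le_sum fun i _ => ?_
    calc _ ≤ ∑ k ∈ range M, (mb π u v ⊥ (B k) (π (g i) ξ - ξ) -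
          mb π u v ⊥ (B (k + 1)) (π (g i) ξ - ξ)) := sum_le_sum fun k _ => by
          have := mb_mono π u v (le_refl (B k)) (F.le k) (π (g i) ξ - ξ)
          unfold Qb
          linarith
      _ ≤ _ := by
          rw [tele (fun k => mb π u v ⊥ (B k) (π (g i) ξ - ξ))]
          have h1 : mb π u v ⊥ (B 0) (π (g i) ξ - ξ) ≤ dp π (g i) ξ ^ 2 := mu_le π _ _
          have h2 : 0 ≤ mb π u v ⊥ (B M) (π (g i) ξ - ξ) := mu_nonneg π _ _
          linarith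
  have e3 := sum_le_sum (s := range M) fun k _ => (key k).2 ξ
  rw [sum_add_distrib, ← mul_sum, ← mul_sum, e1] at e3
  have e4 : mb π u v ⊥ (B 0) ξ ≤ ‖ξ‖ ^ 2 := mu_le π _ _
  have e5 := mb_mono π u v (bot_le (a := B M)) (le_refl (B M)) ξ
  linarith

theorem ineq_three {B : ℕ → AddSubgroup A} (hB : ∀ k, B k ≤ B (k + 1)) {u v : A → Γ} (h : Pl u v)
    {g : Γ} (m : Mv u v g 1) (ξ : H) (M : ℕ) :
    ∑ k ∈ range M, (mb π u v (B (k + 1)) (B k) ξ - mb π u v (B (k + 1)) (B (k + 1)) ξ) ≤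
      5 / 4 * ∑ k ∈ range M, Qb π u v (B k) (B (k + 1)) (B k) (B (k + 1)) ξ +
      5 * dp π g ξ ^ 2 := by
  have key := fun k => move π h m (X₀ := B k) (X₁ := B (k + 1)) (Y₀ := B k) (Y₁ := B (k + 1))
    (hB k) (hB k) (fun a ha => by rwa [one_mul]) (fun a ha => by rwa [one_mul])
    (fun T _ hT a ha => by simpa using hT a ha)
  have e2 : ∑ k ∈ range M, Qb π u v (B k) (B (k + 1)) (B k) (B (k + 1)) (π g ξ - ξ) ≤
      dp π g ξ ^ 2 := by
    calc _ ≤ ∑ k ∈ range M, (mb π u v (B k) (B k) (π g ξ - ξ) -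
          mb π u v (B (k + 1)) (B (k + 1)) (π g ξ - ξ)) := sum_le_sum fun k _ => by
          have := mb_mono π u v (le_refl (B (k + 1))) (hB k) (π g ξ - ξ)
          have := mb_mono π u v (hB k) (le_refl (B (k + 1))) (π g ξ - ξ)
          unfold Qb
          linarith
      _ ≤ _ := by
          rw [tele (fun k => mb π u v (B k) (B k) (π g ξ - ξ))]
          have h1 : mb π u v (B 0) (B 0) (π g ξ - ξ) ≤ dp π g ξ ^ 2 := mu_le π _ _
          have h2 : 0 ≤ mb π u v (B M) (B M) (π g ξ - ξ) := mu_nonneg π _ _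
          linarith
  have e3 := sum_le_sum (s := range M) fun k _ => (key k).2 ξ
  rw [sum_add_distrib, ← mul_sum, ← mul_sum] at e3
  linarith

/-- **Relative property (T)** for the plane. -/
theorem rel_T {I : Type*} [Fintype I] {α : I → A} {c : ℕ → I} {B : ℕ → AddSubgroup A}
    (F : Fl α c B) {u v : A → Γ} (h : Pl u v) {g g' : I → Γ} (m : ∀ i, Mv u v (g i) (α i))
    (m' : ∀ i, Mv v u (g' i) (α i)) {i₀ : I} (hi : α i₀ = 1) (ξ : H) {ε : ℝ}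
    (hg : ∀ i, dp π (g i) ξ ≤ ε) (hg' : ∀ i, dp π (g' i) ξ ≤ ε)
    (hu : ∀ a ∈ B 0, dp π (u a) ξ ≤ ε) (hv : ∀ a ∈ B 0, dp π (v a) ξ ≤ ε) {M : ℕ} {a : A}
    (ha : a ∈ B M) : dp π (u a) ξ ≤ 30 * (Fintype.card I + 1) * ε := by
  have hε : 0 ≤ ε := (dp_nonneg π _ _).trans (hg i₀)
  have i1 := ineq_one π F h m ξ M
  have i2 := ineq_one π F h.symm m' ξ M
  have i3 := ineq_three π F.le h (hi ▸ m i₀) ξ M
  simp only [mb_swap π u v] at i2
  have s1 : ∀ f : I → Γ, (∀ i, dp π (f i) ξ ≤ ε) →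
      ∑ i, dp π (f i) ξ ^ 2 ≤ Fintype.card I * ε ^ 2 := fun f hf => by
    have := sum_le_card_nsmul univ (fun i => dp π (f i) ξ ^ 2) (ε ^ 2)
      fun i _ => pow_le_pow_left₀ (dp_nonneg π _ _) (hf i) 2
    rwa [card_univ, nsmul_eq_mul] at this
  have s2 := s1 g hg
  have s3 := s1 g' hg'
  have s4 : dp π (g i₀) ξ ^ 2 ≤ ε ^ 2 := pow_le_pow_left₀ (dp_nonneg π _ _) (hg i₀) 2
  -- the mass outside the first box
  have d1 : ‖ξ‖ ^ 2 - mb π u v (B 0) (B 0) ξ ≤ 4 * ε ^ 2 := by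
    obtain ⟨y, hy, hy'⟩ := exists_fix_family π univ
      (fun b : Bool => if b then u '' B 0 else v '' B 0)
      (fun b => by
        cases b
        exacts [⟨0, zero_mem _, h.hv.zero⟩, ⟨0, zero_mem _, h.hu.zero⟩])
      (fun b => by
        cases b
        · rintro _ ⟨a, ha, rfl⟩ _ ⟨b, hb, rfl⟩
          exact ⟨a + b, add_mem ha hb, h.hv a b⟩
        · rintro _ ⟨a, ha, rfl⟩ _ ⟨b, hb, rfl⟩
          exact ⟨a + b, add_mem ha hb, h.hu a b⟩)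
      (fun b b' s hs t ht => by
        refine h.pl_comm (h.bx_sub (B 0) (B 0) ?_) (h.bx_sub (B 0) (B 0) ?_)
        · cases b
          exacts [Or.inr hs, Or.inl hs]
        · cases b'
          exacts [Or.inr ht, Or.inl ht]) ξ (δ := ε)
      (fun b => by
        cases b
        · rintro _ ⟨a, ha, rfl⟩
          exact hv a ha
        · rintro _ ⟨a, ha, rfl⟩
          exact hu a ha)
    have h1 : y ∈ Fix π (bx u v (B 0) (B 0)) := by
      rintro s (hs | hs)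
      exacts [hy true (mem_univ _) s hs, hy false (mem_univ _) s hs]
    have h2 := norm_sub_E_le π ξ h1
    rw [norm_sub_E_sq] at h2
    have h3 : ‖ξ - y‖ ^ 2 ≤ (2 * ε) ^ 2 :=
      pow_le_pow_left₀ (norm_nonneg _) (by simpa using hy') 2
    unfold mb
    linarith
  set x := ∑ k ∈ range M, (mb π u v (B k) (B k) ξ - mb π u v (B k) (B (k + 1)) ξ) with hx
  set y := ∑ k ∈ range M, (mb π u v (B k) (B k) ξ - mb π u v (B (k + 1)) (B k) ξ) with hy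
  set z := ∑ k ∈ range M,
    (mb π u v (B (k + 1)) (B k) ξ - mb π u v (B (k + 1)) (B (k + 1)) ξ) with hz
  have r1 : y + z = mb π u v (B 0) (B 0) ξ - mb π u v (B M) (B M) ξ := by
    rw [← tele (fun k => mb π u v (B k) (B k) ξ), hy, hz, ← sum_add_distrib]
    exact sum_congr rfl fun k _ => by ring
  have r2 : ∑ k ∈ range M, Qb π u v (B k) (B (k + 1)) (B k) (B (k + 1)) ξ = x - z := by
    rw [hx, hz, ← sum_sub_distrib]
    exact sum_congr rfl fun k _ => by unfold Qb; ring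
  have r3 : 0 ≤ z := sum_nonneg fun k _ => sub_nonneg.2 (mb_mono π u v le_rfl (F.le k) ξ)
  rw [r2] at i3
  have d0 : mb π u v (B 0) (B 0) ξ ≤ ‖ξ‖ ^ 2 := mu_le π _ _
  have hc : (0 : ℝ) ≤ Fintype.card I := Nat.cast_nonneg _
  have hc' : (0 : ℝ) ≤ Fintype.card I * ε ^ 2 := by positivity
  have T : ‖ξ‖ ^ 2 - mb π u v (B M) (B M) ξ ≤ 215 * ε ^ 2 + 135 * (Fintype.card I * ε ^ 2) := by
    have := sq_nonneg ε
    linarith
  have f1 : dp π (u a) (E π (bx u v (B M) (B M)) ξ) = 0 :=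
    dp_fix π (((mem_bx π).1 (E_mem π _ ξ)).1 a ha)
  have f2 := dp_near π (u a) ξ (E π (bx u v (B M) (B M)) ξ)
  have f3 : ‖ξ - E π (bx u v (B M) (B M)) ξ‖ ≤ 15 * (Fintype.card I + 1) * ε := by
    refine (pow_le_pow_iff_left₀ (norm_nonneg _) (by positivity) two_ne_zero).1 ?_
    rw [norm_sub_E_sq]
    refine T.trans ?_
    have : (0 : ℝ) ≤ (Fintype.card I : ℝ) ^ 2 * ε ^ 2 := by positivity
    have := sq_nonneg ε
    nlinarith
  linarith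

end Vale.Agent.N192T
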