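import Vale.Agent.N192T.Rel
import Vale.Agent.N192.St

/-!
# P192, property (T): from row and column groups to the whole Steinberg group
-/

namespace Vale.Agent.N192T

open scoped InnerProductSpace Topology
open Vale.Agent.N192 Filter

variable {Γ : Type*} [Group Γ] {H : Type*} [NormedAddCommGroup H] [InnerProductSpace ℝ H]
  (π : Γ →* (H →ₗᵢ[ℝ] H))

/-- An almost closest pair of fixed vectors is almost fixed by a commutator that normalises both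
sets. -/
theorem pair {M L : Set Γ} {m l h : Γ} (hm : m ∈ M) (hl : l ∈ L) (hh : h = m * l * m⁻¹ * l⁻¹)
    (hM : ∀ y ∈ Fix π M, π h y ∈ Fix π M) (hL : ∀ y ∈ Fix π L, π h y ∈ Fix π L) {v w : H}
    (hv : v ∈ Fix π M) (hw : w ∈ Fix π L) {σ ρ k b : ℝ} (hσ : ‖v - w‖ ≤ σ) (hρ : 0 ≤ ρ)
    (hmin : ∀ y ∈ Fix π M, ∀ z ∈ Fix π L, ‖y - v‖ ≤ 2 * σ → ρ ≤ ‖y - z‖) (hk : 0 ≤ k)
    (hk' : 4 * (σ ^ 2 - ρ ^ 2) ≤ k ^ 2) (hb : 0 ≤ b) (hb' : 8 * σ * k ≤ b ^ 2) :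
    dp π h v ≤ b ∧ dp π h w ≤ b + k := by
  have hσ0 : 0 ≤ σ := (norm_nonneg _).trans hσ
  have m0 : dp π m v = 0 := dp_fix π (hv m hm)
  have l0 : dp π l v ≤ 2 * σ := by
    have := dp_near π l v w
    rw [dp_fix π (hw l hl)] at this
    linarith
  have h0 : dp π h v ≤ 4 * σ := by
    have := dp_comm π m l v
    rw [← hh] at this
    linarith
  have half : ∀ y : H, ‖(1 / 2 : ℝ) • y‖ = 1 / 2 * ‖y‖ := fun y => by
    rw [norm_smul]; norm_num
  have h1 := hmin ((1 / 2 : ℝ) • (π h v + v)) ((Fix π M).smul_mem _ (add_mem (hM v hv) hv))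
    ((1 / 2 : ℝ) • (π h w + w)) ((Fix π L).smul_mem _ (add_mem (hL w hw) hw)) (by
      rw [show (1 / 2 : ℝ) • (π h v + v) - v = (1 / 2 : ℝ) • (π h v - v) by module, half]
      unfold dp at h0
      linarith)
  rw [show (1 / 2 : ℝ) • (π h v + v) - (1 / 2 : ℝ) • (π h w + w) =
    (1 / 2 : ℝ) • (π h (v - w) + (v - w)) by rw [map_sub]; module, half] at h1
  have h2 := parallelogram_law_with_norm ℝ (π h (v - w)) (v - w)
  rw [(π h).norm_map] at h2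
  have h3 : ‖π h (v - w) - (v - w)‖ ≤ k := by
    refine (pow_le_pow_iff_left₀ (norm_nonneg _) hk two_ne_zero).1 ?_
    have : ‖v - w‖ ^ 2 ≤ σ ^ 2 := pow_le_pow_left₀ (norm_nonneg _) hσ 2
    have : (2 * ρ) ^ 2 ≤ ‖π h (v - w) + (v - w)‖ ^ 2 :=
      pow_le_pow_left₀ (by positivity) (by linarith) 2
    nlinarith
  set d := π h v - v with hd
  set e := π h w - w with he
  have hde : π h (v - w) - (v - w) = d - e := by rw [map_sub, hd, he]; abel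
  rw [hde] at h3
  have dM : d ∈ Fix π M := sub_mem (hM v hv) hv
  have eL : e ∈ Fix π L := sub_mem (hL w hw) hw
  set z := π l⁻¹ v with hz
  have i1 : ⟪π h v, d⟫_ℝ = ⟪π m⁻¹ z, π l⁻¹ d⟫_ℝ := by
    rw [hh, ap_mul, ap_mul, ap_mul, inner_ap, inv_fix π (dM m hm), inner_ap]
  have i2 : ⟪v, d⟫_ℝ = ⟪z, π l⁻¹ d⟫_ℝ := ((π l⁻¹).inner_map_map v d).symm
  have i3 : ⟪π m⁻¹ z, d⟫_ℝ = ⟪z, d⟫_ℝ := by rw [inner_ap, inv_inv, dM m hm]
  have i4 : ‖d‖ ^ 2 = ⟪π m⁻¹ z - z, π l⁻¹ d - d⟫_ℝ := by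
    have i5 : ‖d‖ ^ 2 = ⟪π h v, d⟫_ℝ - ⟪v, d⟫_ℝ := by
      rw [← inner_sub_left, ← real_inner_self_eq_norm_sq]
    rw [inner_sub_left, inner_sub_right (π m⁻¹ z) (π l⁻¹ d) d, inner_sub_right z (π l⁻¹ d) d]
    linarith
  have j1 : ‖π m⁻¹ z - z‖ ≤ 4 * σ := by
    have a1 := dp_near π m⁻¹ z v
    have a2 : ‖z - v‖ = dp π l v := dp_inv π l v
    rw [dp_inv π m v, m0, a2] at a1
    unfold dp at a1 l0
    linarith
  have j2 : ‖π l⁻¹ d - d‖ ≤ 2 * k := by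
    have a1 := dp_near π l⁻¹ d e
    rw [dp_inv π l e, dp_fix π (eL l hl)] at a1
    unfold dp at a1
    linarith
  have j3 : ‖d‖ ≤ b := by
    refine (pow_le_pow_iff_left₀ (norm_nonneg _) hb two_ne_zero).1 ?_
    rw [i4]
    refine (real_inner_le_norm _ _).trans ?_
    calc _ ≤ 4 * σ * (2 * k) := mul_le_mul j1 j2 (norm_nonneg _) (by positivity)
      _ ≤ _ := by linarith
  refine ⟨j3, ?_⟩
  have j4 := norm_sub_le d (d - e)
  rw [sub_sub_cancel] at j4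
  exact j4.trans (by linarith)

variable {ι A : Type} [Ring A] {x : ι → ι → A → Γ}

/-- the elements of a column -/
def col (x : ι → ι → A → Γ) (c : ι) : Set Γ := {g | ∃ i a, i ≠ c ∧ g = x i c a}

/-- the elements of a row -/
def row (x : ι → ι → A → Γ) (c : ι) : Set Γ := {g | ∃ j a, c ≠ j ∧ g = x c j a}

theorem cl : Closed (fun (i j : ι) (_ : A) => i ≠ j) :=
  ⟨fun h => h, fun h => h, fun h => h, fun h _ => h, fun _ _ h => h⟩

variable (h : IsSt (fun (i j : ι) (_ : A) => i ≠ j) x)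
include h

theorem x_comm {i j k : ι} (hij : i ≠ j) (hjk : j ≠ k) (hik : i ≠ k) (a b : A) :
    x i k (a * b) = x i j a * x j k b * (x i j a)⁻¹ * (x j k b)⁻¹ := by
  rw [← h.mul hij hjk hik, commutatorElement_def]

theorem col_inv {c i j : ι} (hi : i ≠ c) (hj : j ≠ c) (hij : i ≠ j) (a : A) :
    ∀ y ∈ Fix π (col x c), π (x i j a) y ∈ Fix π (col x c) := by
  rintro y hy _ ⟨k, b, hk, rfl⟩
  by_cases e : k = j
  · subst e
    have e1 := h.conj_left (a := -a) (b := b) hij hk hi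
    rw [← h.inv cl (a := a) hij, inv_inv] at e1
    have e2 : x k c b * x i k a = x i k a * (x i c (-a * b) * x k c b) := by rw [← e1]; group
    rw [← ap_mul, e2, ap_mul, ap_mul, hy _ ⟨k, b, hk, rfl⟩, hy _ ⟨i, _, hi, rfl⟩]
  · rw [← ap_mul, (h.comm (a := b) (b := a) hk hij hi.symm e).eq, ap_mul, hy _ ⟨k, b, hk, rfl⟩]

theorem row_inv {c i j : ι} (hi : i ≠ c) (hj : j ≠ c) (hij : i ≠ j) (a : A) :
    ∀ y ∈ Fix π (row x c), π (x i j a) y ∈ Fix π (row x c) := by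
  rintro y hy _ ⟨k, b, hk, rfl⟩
  by_cases e : k = i
  · subst e
    have e1 := h.conj_right cl (a := b) (b := -a) hk hij hj.symm
    rw [← h.inv cl (a := a) hij, inv_inv] at e1
    have e2 : x c k b * x k j a = x k j a * (x c j (-(b * -a)) * x c k b) := by rw [← e1]; group
    rw [← ap_mul, e2, ap_mul, ap_mul, hy _ ⟨k, b, hk, rfl⟩, hy _ ⟨j, _, hj.symm, rfl⟩]
  · rw [← ap_mul, (h.comm (a := b) (b := a) hk hij e hj.symm).eq, ap_mul, hy _ ⟨k, b, hk, rfl⟩]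

theorem dp_root {c : ι} {v w : H} (hv : v ∈ Fix π (col x c)) (hw : w ∈ Fix π (row x c))
    {i j : ι} (hij : i ≠ j) (a : A) : dp π (x i j a) v ≤ 4 * ‖v - w‖ := by
  have h0 := norm_nonneg (v - w)
  have h1 : ∀ k, k ≠ c → ∀ b, dp π (x k c b) v = 0 := fun k hk b => dp_fix π (hv _ ⟨k, b, hk, rfl⟩)
  have h2 : ∀ k, c ≠ k → ∀ b, dp π (x c k b) v ≤ 2 * ‖v - w‖ := fun k hk b => by
    have := dp_near π (x c k b) v w
    rwa [dp_fix π (hw _ ⟨k, b, hk, rfl⟩), zero_add] at this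
  by_cases hj : j = c
  · subst hj
    rw [h1 i hij]
    linarith
  by_cases hi : i = c
  · subst hi
    linarith [h2 j hij a]
  have h3 := dp_comm π (x i c a) (x c j 1) v
  rw [← x_comm h hi (Ne.symm hj) hij, mul_one, h1 i hi] at h3
  linarith [h2 j (Ne.symm hj) 1]

theorem pair_root {c : ι} {v w : H} (hv : v ∈ Fix π (col x c)) (hw : w ∈ Fix π (row x c))
    {σ ρ k b : ℝ} (hσ : ‖v - w‖ ≤ σ) (hρ : 0 ≤ ρ)
    (hmin : ∀ y ∈ Fix π (col x c), ∀ z ∈ Fix π (row x c), ‖y - v‖ ≤ 2 * σ → ρ ≤ ‖y - z‖)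
    (hk : 0 ≤ k) (hk' : 4 * (σ ^ 2 - ρ ^ 2) ≤ k ^ 2) (hb : 0 ≤ b) (hb' : 8 * σ * k ≤ b ^ 2)
    {i j : ι} (hi : i ≠ c) (hj : j ≠ c) (hij : i ≠ j) (a : A) :
    dp π (x i j a) v ≤ b + k ∧ dp π (x i j a) w ≤ b + k := by
  have e := x_comm h hi hj.symm hij a 1
  rw [mul_one] at e
  have := pair π (M := col x c) (L := row x c) ⟨i, a, hi, rfl⟩ ⟨j, 1, hj.symm, rfl⟩ e
    (col_inv π h hi hj hij a) (row_inv π h hi hj hij a) hv hw hσ hρ hmin hk hk' hb hb'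
  exact ⟨by linarith [this.1], this.2⟩

variable [CompleteSpace H] [Fintype ι] (h5 : Fintype.card ι ≤ 5)
include h5

omit h in
theorem near_gen (y : ι → A → Γ) (P : ι → Prop) (hy : ∀ i, P i → Ad (y i))
    (hc : ∀ i j, P i → P j → ∀ a b, Commute (y i a) (y j b)) (v : H) {δ : ℝ} (hδ : 0 ≤ δ)
    (hv : ∀ i, P i → ∀ a, dp π (y i a) v ≤ δ) :
    ∃ z, (∀ i, P i → ∀ a, π (y i a) z = z) ∧ ‖v - z‖ ≤ 5 * δ := by
  classical
  obtain ⟨z, hz, hz'⟩ := exists_fix_family π Finset.univ (fun i : {i // P i} => Set.range (y i))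
    (fun i => ⟨0, (hy i i.2).zero⟩)
    (fun i => by
      rintro _ ⟨a, rfl⟩ _ ⟨b, rfl⟩
      exact ⟨a + b, hy i i.2 a b⟩)
    (fun i j => by
      rintro _ ⟨a, rfl⟩ _ ⟨b, rfl⟩
      exact hc i j i.2 j.2 a b) v (δ := δ)
    (fun i => by
      rintro _ ⟨a, rfl⟩
      exact hv i i.2 a)
  refine ⟨z, fun i hi a => hz ⟨i, hi⟩ (Finset.mem_univ _) _ ⟨a, rfl⟩, hz'.trans ?_⟩
  refine mul_le_mul_of_nonneg_right ?_ hδ
  rw [Finset.card_univ]
  exact_mod_cast (Fintype.card_subtype_le P).trans h5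

theorem near_col (c : ι) (v : H) {δ : ℝ} (hδ : 0 ≤ δ)
    (hv : ∀ i, i ≠ c → ∀ a, dp π (x i c a) v ≤ δ) :
    ∃ z ∈ Fix π (col x c), ‖v - z‖ ≤ 5 * δ := by
  obtain ⟨z, hz, hz'⟩ := near_gen π h5 (fun i => x i c) (· ≠ c) (fun i hi a b => h.add hi hi)
    (fun i j hi hj a b => h.comm hi hj hj.symm hi) v hδ hv
  refine ⟨z, ?_, hz'⟩
  rintro _ ⟨i, a, hi, rfl⟩
  exact hz i hi a

theorem near_row (c : ι) (v : H) {δ : ℝ} (hδ : 0 ≤ δ)
    (hv : ∀ j, c ≠ j → ∀ a, dp π (x c j a) v ≤ δ) :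
    ∃ z ∈ Fix π (row x c), ‖v - z‖ ≤ 5 * δ := by
  obtain ⟨z, hz, hz'⟩ := near_gen π h5 (fun j => x c j) (c ≠ ·) (fun i hi a b => h.add hi hi)
    (fun i j hi hj a b => h.comm hi hj hi.symm hj) v hδ hv
  refine ⟨z, ?_, hz'⟩
  rintro _ ⟨i, a, hi, rfl⟩
  exact hz i hi a

variable (h3 : ∀ i j : ι, ∃ p, i ≠ p ∧ j ≠ p)
include h3

/-- The improvement step. -/
theorem improve {c : ι} {v w : H} (hv : v ∈ Fix π (col x c)) (hw : w ∈ Fix π (row x c)) :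
    ∃ c' v' w', v' ∈ Fix π (col x c') ∧ w' ∈ Fix π (row x c') ∧ ‖v' - v‖ ≤ 4 * ‖v - w‖ ∧
      ‖v' - w'‖ ≤ (1 - 1 / 10 ^ 57) * ‖v - w‖ := by
  by_contra hcon
  have hmin : ∀ c' v' w', v' ∈ Fix π (col x c') → w' ∈ Fix π (row x c') →
      ‖v' - v‖ ≤ 4 * ‖v - w‖ → (1 - 1 / 10 ^ 57) * ‖v - w‖ < ‖v' - w'‖ :=
    fun c' v' w' h1 h2 h3 => not_le.1 fun h4 => hcon ⟨c', v', w', h1, h2, h3, h4⟩
  set τ := ‖v - w‖ with hτ
  have h0 : 0 ≤ τ := norm_nonneg _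
  have hρ : 0 ≤ (1 - 1 / 10 ^ 57) * τ := mul_nonneg (by norm_num) h0
  have hτ2 := sq_nonneg τ
  obtain ⟨c', hc', -⟩ := h3 c c
  -- first stage
  have s1 : ∀ i j, i ≠ c → j ≠ c → i ≠ j → ∀ a,
      dp π (x i j a) v ≤ τ / 10 ^ 13 ∧ dp π (x i j a) w ≤ τ / 10 ^ 13 := fun i j hi hj hij a => by
    have := pair_root π h hv hw (σ := τ) (k := τ / 10 ^ 28) (b := τ / (2 * 10 ^ 13)) le_rfl hρ
      (fun y hy z hz hyv => (hmin c y z hy hz (by linarith)).le) (by positivity) (by nlinarith)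
      (by positivity) (by nlinarith) hi hj hij a
    constructor <;> linarith [this.1, this.2]
  have s1v : ∀ i j, i ≠ c → i ≠ j → ∀ a, dp π (x i j a) v ≤ τ / 10 ^ 13 := fun i j hi hij a => by
    by_cases hj : j = c
    · subst hj
      rw [dp_fix π (hv _ ⟨i, a, hi, rfl⟩)]
      positivity
    · exact (s1 i j hi hj hij a).1
  obtain ⟨v', hv', nv⟩ := near_row π h h5 c' v (δ := τ / 10 ^ 13) (by positivity)
    fun j hj a => s1v c' j hc'.symm hj a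
  obtain ⟨w', hw', nw⟩ := near_col π h h5 c' w (δ := τ / 10 ^ 13) (by positivity) fun i hi a => by
    by_cases e : i = c
    · subst e
      rw [dp_fix π (hw _ ⟨c', a, hi, rfl⟩)]
      positivity
    · exact (s1 i c' e hc'.symm hi a).2
  have n1 : ‖w' - v‖ ≤ τ + 5 * (τ / 10 ^ 13) := by
    have := norm_sub_le_norm_sub_add_norm_sub w' w v
    rw [norm_sub_rev w' w, norm_sub_rev w v] at this
    linarith
  have n2 : ‖w' - v'‖ ≤ τ + τ / 10 ^ 12 := by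
    have := norm_sub_le_norm_sub_add_norm_sub w' v v'
    linarith
  -- second stage
  have s2 : ∀ j, j ≠ c' → c ≠ j → ∀ a, dp π (x c j a) v ≤ τ / 50 := fun j hj hcj a => by
    have := (pair_root π h hw' hv' (σ := τ + τ / 10 ^ 12) (k := τ / 160000) (b := τ / 100) n2 hρ
      (fun y hy z hz hyv => (hmin c' y z hy hz (by
        have := norm_sub_le_norm_sub_add_norm_sub y w' v
        linarith)).le) (by positivity) (by nlinarith)
      (by positivity) (by nlinarith) hc' hj hcj a).2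
    have h2 := dp_near π (x c j a) v v'
    linarith
  obtain ⟨z, hz, nz⟩ := near_row π h h5 c v (δ := τ / 20) (by positivity) fun j hj a => by
    by_cases e : j = c'
    · subst e
      obtain ⟨p, hp, hp'⟩ := h3 c j
      have e1 := dp_comm π (x c p a) (x p j 1) v
      rw [← x_comm h hp hp'.symm hj, mul_one] at e1
      linarith [s2 p hp'.symm hp a, s1v p j hp.symm hp'.symm 1]
    · linarith [s2 j e hj a]
  have := hmin c v z hv hz (by rw [sub_self, norm_zero]; linarith)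
  linarith

/-- A pair of close fixed vectors is close to an invariant vector. -/
theorem exists_inv {c : ι} {v w : H} (hv : v ∈ Fix π (col x c)) (hw : w ∈ Fix π (row x c)) :
    ∃ z, (∀ i j, i ≠ j → ∀ a, π (x i j a) z = z) ∧ ‖v - z‖ ≤ 4 * 10 ^ 57 * ‖v - w‖ := by
  let σ := {s : ι × H × H // s.2.1 ∈ Fix π (col x s.1) ∧ s.2.2 ∈ Fix π (row x s.1)}
  have step : ∀ s : σ, ∃ t : σ, ‖t.1.2.1 - s.1.2.1‖ ≤ 4 * ‖s.1.2.1 - s.1.2.2‖ ∧
      ‖t.1.2.1 - t.1.2.2‖ ≤ (1 - 1 / 10 ^ 57) * ‖s.1.2.1 - s.1.2.2‖ := fun s => by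
    obtain ⟨c', v', w', h1, h2, h4⟩ := improve π h h5 h3 s.2.1 s.2.2
    exact ⟨⟨(c', v', w'), h1, h2⟩, h4⟩
  choose f hf using step
  set r : ℝ := 1 - 1 / 10 ^ 57 with hr
  have r0 : 0 ≤ r := by norm_num [hr]
  have r1 : r < 1 := by norm_num [hr]
  let s : ℕ → σ := fun n => f^[n] ⟨(c, v, w), hv, hw⟩
  have hs : ∀ n, s (n + 1) = f (s n) := fun n => Function.iterate_succ_apply' _ _ _
  have b1 : ∀ n, ‖(s n).1.2.1 - (s n).1.2.2‖ ≤ ‖v - w‖ * r ^ n := fun n => by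
    induction n with
    | zero => simp [s]
    | succ n ih =>
      rw [hs, pow_succ]
      refine (hf _).2.trans ?_
      nlinarith
  have b2 : ∀ n, dist (s n).1.2.1 (s (n + 1)).1.2.1 ≤ 4 * ‖v - w‖ * r ^ n := fun n => by
    rw [dist_comm, dist_eq_norm, hs]
    refine (hf _).1.trans ?_
    linarith [b1 n]
  obtain ⟨z, hz⟩ := cauchySeq_tendsto_of_complete (cauchySeq_of_le_geometric r _ r1 b2)
  refine ⟨z, fun i j hij a => ?_, ?_⟩
  · have t1 : Tendsto (fun n => π (x i j a) (s n).1.2.1 - (s n).1.2.1) atTop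
        (𝓝 (π (x i j a) z - z)) := (((π (x i j a)).continuous.tendsto z).comp hz).sub hz
    have t2 : Tendsto (fun n => π (x i j a) (s n).1.2.1 - (s n).1.2.1) atTop (𝓝 0) := by
      refine squeeze_zero_norm (a := fun n => 4 * (‖v - w‖ * r ^ n)) (fun n => ?_) ?_
      · have := dp_root π h (s n).2.1 (s n).2.2 hij a
        unfold dp at this
        linarith [b1 n]
      · simpa using ((tendsto_pow_atTop_nhds_zero_of_lt_one r0 r1).const_mul ‖v - w‖).const_mul 4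
    exact sub_eq_zero.1 (tendsto_nhds_unique t1 t2)
  · have := dist_le_of_le_geometric_of_tendsto₀ r _ r1 b2 hz
    rw [dist_eq_norm] at this
    refine le_trans this (le_of_eq ?_)
    rw [hr]
    field_simp
    ring

end Vale.Agent.N192T
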